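import Vale.Agent.P231.Facts

/-!
The pointwise identity behind the multiplier argument.
-/

namespace Vale.Agent.P231

open Real

/-- The multiplier combination of the four inequalities is an exact derivative up to the target
and a multiple of the endpoint value. -/
theorem multiplier_identity (s c sg G1 J K wt wr a b a' b' a'' b'' ye Jd : ℝ)
    (hsc : s ^ 2 + c ^ 2 = 1)
    (hJ : Jd * (2 * s * c) = c ^ 2 * wt - s ^ 2 * wr) :
    sg * (2 * s ^ 2 * c ^ 2 * (a + b) - s ^ 2 * c ^ 2 * (s ^ 2 * a'' + c ^ 2 * b'')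
        + (s ^ 4 + c ^ 4) * (a + b + s * c * (a' + b') - ye))
      + 2 * (K - sg / 2 - sg * (s * c) ^ 2 - J)
        * (s * c * (a' + b') + (c ^ 2 - s ^ 2) * (a - b) + ye)
      - (wt * a + wr * b)
    = (-(sg * (s * c) ^ 2 * (a'' + b'') - (2 * sg - (wt + wr)) * (a + b)) / 2
        + (sg * (s * c) ^ 2 * (c ^ 2 - s ^ 2) * (a'' - b'')
            - ((2 * sg - (wt + wr)) * (c ^ 2 - s ^ 2) + 2 * G1 * (-(4 * (s * c)))
                + sg * (s * c) ^ 2 * (-(4 * (c ^ 2 - s ^ 2)))) * (a - b)) / 2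
        + ((c ^ 2 - s ^ 2) * (2 * K - 4 * (sg * (s * c) ^ 2) - 2 * J)
            + s * c * (-(4 * G1) - 2 * Jd)) * (a - b)
        + s * c * (2 * K - 4 * (sg * (s * c) ^ 2) - 2 * J) * (a' + b'))
      - 2 * (sg + J - K) * ye := by
  have h2 : c ^ 2 = 1 - s ^ 2 := by linarith
  have h4 : c ^ 4 = (1 - s ^ 2) ^ 2 := by rw [← h2]; ring
  have h3 : c ^ 3 = c * (1 - s ^ 2) := by rw [← h2]; ring
  have h5 : c ^ 5 = c * (1 - s ^ 2) ^ 2 := by rw [← h2]; ring
  linear_combination (norm := (ring_nf; simp only [h2, h3, h4, h5]; ring)) (a - b) * hJ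

end Vale.Agent.P231
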