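import Vale.Agent.P231.Analysis.Scalar

/-!
Integration of the multiplier identity.
-/

namespace Vale.Agent.P231

open Real Set MeasureTheory Filter Topology

variable {y y' y'' eta : ℝ → ℝ} {ye : ℝ} {l k : ℕ}

theorem abs_sin_mul_cos_le {t : ℝ} (ht : 0 ≤ t) : |sin t * cos t| ≤ t := by
  rw [abs_mul]
  calc |sin t| * |cos t| ≤ |t| * 1 :=
        mul_le_mul abs_sin_le_abs (abs_cos_le_one t) (abs_nonneg _) (abs_nonneg _)
    _ = t := by rw [mul_one, abs_of_nonneg ht]

theorem sin_mul_cos_lower {t : ℝ} (ht : t ∈ Ioc (0 : ℝ) (π / 4)) :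
    t / π ≤ sin t * cos t := by
  have hpi := pi_pos
  have h1 := mul_le_sin (x := 2 * t) (by linarith [ht.1]) (by linarith [ht.2])
  rw [sin_two_mul] at h1
  have h2 : 0 < t / π := div_pos ht.1 hpi
  have : 2 / π * (2 * t) = 4 * (t / π) := by ring
  linarith

theorem abs_modelJacobian_le (hl : 1 ≤ l) {t u : ℝ}
    (hu : |sin u * cos u| ≤ t) :
    |modelJacobian l k u| ≤ t := by
  have h1 : |sin u * cos u| ≤ 1 := by
    rw [abs_mul]; exact mul_le_one₀ (abs_sin_le_one u) (abs_nonneg _) (abs_cos_le_one u)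
  unfold modelJacobian
  rw [abs_mul, abs_pow, abs_pow]
  calc |sin u * cos u| ^ l * |sin u| ^ k ≤ |sin u * cos u| ^ l * 1 :=
        mul_le_mul_of_nonneg_left (pow_le_one₀ (abs_nonneg _) (abs_sin_le_one u)) (by positivity)
    _ ≤ |sin u * cos u| := by
        rw [mul_one]; exact pow_le_of_le_one (abs_nonneg _) h1 (by omega)
    _ ≤ t := hu

/-- The boundary form whose derivative the identity computes. -/
noncomputable def boundaryForm (c : Cert l k) (y y' : ℝ → ℝ) (t : ℝ) : ℝ :=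
  -(c.Sig t * (y' t - y' (π / 2 - t)) - c.Sig' t * (y t + y (π / 2 - t))) / 2
    + (c.Sig t * (cos t ^ 2 - sin t ^ 2) * (y' t + y' (π / 2 - t))
        - (c.Sig' t * (cos t ^ 2 - sin t ^ 2) + c.Sig t * (-(4 * (sin t * cos t))))
          * (y t - y (π / 2 - t))) / 2
    + sin t * cos t * (2 * c.K - 4 * c.Sig t - 2 * c.J t) * (y t - y (π / 2 - t))

theorem boundaryForm_quarter (c : Cert l k) (y y' : ℝ → ℝ) :
    boundaryForm c y y' (π / 4) = 0 := by
  simp only [boundaryForm, show π / 2 - π / 4 = π / 4 by ring, c.Sig'_mid, sin_pi_div_four,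
    cos_pi_div_four]
  ring

/-- The boundary form is `O(t log t)` at `0`. -/
theorem abs_boundaryForm_le (c : Cert l k) {C Cs Cj : ℝ}
    (hC : ∀ t ∈ Ioc (0 : ℝ) (π / 4),
      |y t| ≤ C * (1 + |log t|) ∧ |y (π / 2 - t)| ≤ C * (1 + |log t|) ∧
      t * |y' t| ≤ C * (1 + |log t|) ∧ t * |y' (π / 2 - t)| ≤ C * (1 + |log t|))
    (hCs : ∀ t ∈ Ioc (0 : ℝ) (π / 4), |c.Sig t| ≤ Cs * t ^ 2 ∧ |c.Sig' t| ≤ Cs * t)
    (hCj : ∀ t ∈ Icc (0 : ℝ) (π / 4), ‖c.J t‖ ≤ Cj) :
    ∀ t ∈ Ioc (0 : ℝ) (π / 4), |boundaryForm c y y' t| ≤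
      (4 * C * (3 * Cs + |c.K| + 2 * Cs * (π / 4) ^ 2 + Cj)) * (t * (1 + |log t|)) := by
  have hpi := pi_pos
  intro t ht
  obtain ⟨h1, h2, h3, h4⟩ := hC t ht
  obtain ⟨g0, g1⟩ := hCs t ht
  have hJ := hCj t ⟨ht.1.le, ht.2⟩
  rw [norm_eq_abs] at hJ
  set L := 1 + |log t| with hL
  have t0 := ht.1
  have hL0 : 0 < L := by positivity
  have hC0 : 0 ≤ C := nonneg_of_mul_nonneg_left ((abs_nonneg _).trans h1) hL0
  have hCs0 : 0 ≤ Cs :=
    nonneg_of_mul_nonneg_left ((abs_nonneg _).trans g1) t0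
  have hd : |y t - y (π / 2 - t)| ≤ 2 * C * L := (abs_sub _ _).trans (by linarith)
  have hs : |y t + y (π / 2 - t)| ≤ 2 * C * L := (abs_add_le _ _).trans (by linarith)
  have hd' : t * |y' t - y' (π / 2 - t)| ≤ 2 * C * L := by
    have := mul_le_mul_of_nonneg_left (abs_sub (y' t) (y' (π / 2 - t))) t0.le
    linarith
  have hs' : t * |y' t + y' (π / 2 - t)| ≤ 2 * C * L := by
    have := mul_le_mul_of_nonneg_left (abs_add_le (y' t) (y' (π / 2 - t))) t0.le
    linarith
  have hcc : |cos t ^ 2 - sin t ^ 2| ≤ 1 := by rw [← cos_two_mul']; exact abs_cos_le_one _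
  have hsc := abs_sin_mul_cos_le t0.le
  have hsc1 : |sin t * cos t| ≤ 1 := by
    rw [abs_mul]; exact mul_le_one₀ (abs_sin_le_one t) (abs_nonneg _) (abs_cos_le_one t)
  have a1 : |c.Sig t * (y' t - y' (π / 2 - t))| ≤ Cs * t * (2 * C * L) := by
    rw [abs_mul]
    calc _ ≤ Cs * t ^ 2 * |y' t - y' (π / 2 - t)| := mul_le_mul_of_nonneg_right g0 (abs_nonneg _)
      _ = Cs * t * (t * |y' t - y' (π / 2 - t)|) := by ring
      _ ≤ _ := mul_le_mul_of_nonneg_left hd' (by positivity)
  have a2 : |c.Sig' t * (y t + y (π / 2 - t))| ≤ Cs * t * (2 * C * L) := by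
    rw [abs_mul]; exact mul_le_mul g1 hs (abs_nonneg _) (by positivity)
  have a3 : |c.Sig t * (cos t ^ 2 - sin t ^ 2) * (y' t + y' (π / 2 - t))| ≤
      Cs * t * (2 * C * L) := by
    rw [abs_mul, abs_mul]
    calc _ ≤ Cs * t ^ 2 * 1 * |y' t + y' (π / 2 - t)| :=
          mul_le_mul_of_nonneg_right (mul_le_mul g0 hcc (abs_nonneg _) (by positivity))
            (abs_nonneg _)
      _ = Cs * t * (t * |y' t + y' (π / 2 - t)|) := by ring
      _ ≤ _ := mul_le_mul_of_nonneg_left hs' (by positivity)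
  have a4 : |(c.Sig' t * (cos t ^ 2 - sin t ^ 2) + c.Sig t * (-(4 * (sin t * cos t))))
        * (y t - y (π / 2 - t))| ≤ (Cs * t * (1 + 4 * (π / 4))) * (2 * C * L) := by
    rw [abs_mul]
    refine mul_le_mul ?_ hd (abs_nonneg _) (by positivity)
    refine (abs_add_le _ _).trans ?_
    rw [abs_mul, abs_mul, abs_neg, abs_mul, abs_of_pos (show (0 : ℝ) < 4 by norm_num)]
    have b1 : |c.Sig' t| * |cos t ^ 2 - sin t ^ 2| ≤ Cs * t :=
      (mul_le_mul g1 hcc (abs_nonneg _) (by positivity)).trans_eq (mul_one _)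
    have b2 : |c.Sig t| * (4 * |sin t * cos t|) ≤ Cs * t * (4 * (π / 4)) := by
      calc _ ≤ Cs * t ^ 2 * (4 * 1) := mul_le_mul g0 (by linarith) (by positivity) (by positivity)
        _ = Cs * t * (4 * t) := by ring
        _ ≤ _ := mul_le_mul_of_nonneg_left (by linarith [ht.2]) (by positivity)
    linarith
  have a5 : |sin t * cos t * (2 * c.K - 4 * c.Sig t - 2 * c.J t) * (y t - y (π / 2 - t))| ≤
      t * (2 * |c.K| + 4 * (Cs * (π / 4) ^ 2) + 2 * Cj) * (2 * C * L) := by
    rw [abs_mul, abs_mul]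
    refine mul_le_mul (mul_le_mul hsc ?_ (abs_nonneg _) t0.le) hd (abs_nonneg _)
      (mul_nonneg t0.le (by have := (abs_nonneg _).trans hJ; positivity))
    have : |c.Sig t| ≤ Cs * (π / 4) ^ 2 :=
      g0.trans (mul_le_mul_of_nonneg_left (pow_le_pow_left₀ t0.le ht.2 2) hCs0)
    refine abs_le.2 ⟨?_, ?_⟩ <;>
      nlinarith [abs_le.1 this, abs_le.1 hJ, le_abs_self c.K, neg_abs_le c.K]
  have hCj0 : 0 ≤ Cj := (abs_nonneg _).trans hJ
  have htL : 0 ≤ C * (t * L) := by positivity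
  have hp : π / 4 ≤ 1 := by linarith [pi_le_four]
  have k1 : Cs * t * (1 + 4 * (π / 4)) * (2 * C * L) ≤ Cs * t * 5 * (2 * C * L) :=
    mul_le_mul_of_nonneg_right (mul_le_mul_of_nonneg_left (by linarith) (by positivity))
      (by positivity)
  unfold boundaryForm
  calc _ ≤ |c.Sig t * (y' t - y' (π / 2 - t))| / 2 + |c.Sig' t * (y t + y (π / 2 - t))| / 2
        + (|c.Sig t * (cos t ^ 2 - sin t ^ 2) * (y' t + y' (π / 2 - t))| / 2
        + |(c.Sig' t * (cos t ^ 2 - sin t ^ 2) + c.Sig t * (-(4 * (sin t * cos t))))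
            * (y t - y (π / 2 - t))| / 2)
        + |sin t * cos t * (2 * c.K - 4 * c.Sig t - 2 * c.J t) * (y t - y (π / 2 - t))| := by
        refine (abs_add_le _ _).trans (add_le_add ((abs_add_le _ _).trans (add_le_add ?_ ?_)) le_rfl)
        · rw [abs_div, abs_neg, abs_two, ← add_div]
          exact div_le_div_of_nonneg_right (abs_sub _ _) two_pos.le
        · rw [abs_div, abs_two, ← add_div]
          exact div_le_div_of_nonneg_right (abs_sub _ _) two_pos.le
    _ ≤ _ := by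
        nlinarith [mul_nonneg htL (abs_nonneg c.K), mul_nonneg htL hCj0, mul_nonneg htL hCs0,
          mul_nonneg (mul_nonneg htL hCs0) (sq_nonneg (π / 4))]

/-- The derivative of the boundary form. -/
theorem hasDerivAt_boundaryForm (h : ScalarData y y' y'' eta ye) (c : Cert l k) {t : ℝ}
    (ht : t ∈ Ioo (0 : ℝ) (π / 2)) :
    HasDerivAt (boundaryForm c y y')
      (2 * (c.Sig t / (sin t * cos t) ^ 2 + c.J t - c.K) * ye
        - (modelJacobian l k t * y t + modelJacobian l k (π / 2 - t) * y (π / 2 - t))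
    + (c.Sig t / (sin t * cos t) ^ 2 * (2 * sin t ^ 2 * cos t ^ 2 * (y t + y (π / 2 - t))
        - sin t ^ 2 * cos t ^ 2 * (sin t ^ 2 * y'' t + cos t ^ 2 * y'' (π / 2 - t))
        + (sin t ^ 4 + cos t ^ 4)
          * (y t + y (π / 2 - t) + sin t * cos t * (y' t + y' (π / 2 - t)) - ye))
      + 2 * (c.K - c.Sig t / (sin t * cos t) ^ 2 / 2 - c.Sig t - c.J t)
        * (sin t * cos t * (y' t + y' (π / 2 - t))
          + (cos t ^ 2 - sin t ^ 2) * (y t - y (π / 2 - t)) + ye))) t := by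
  have hpi := pi_pos
  have hr : π / 2 - t ∈ Ioo (0 : ℝ) (π / 2) := ⟨by linarith [ht.2], by linarith [ht.1]⟩
  have hs0 : sin t ≠ 0 := ne_of_gt (sin_pos_of_pos_of_lt_pi ht.1 (by linarith [ht.2]))
  have hc0 : cos t ≠ 0 := ne_of_gt (cos_pos_of_mem_Ioo ⟨by linarith [ht.1], ht.2⟩)
  have hsub : HasDerivAt (fun s => π / 2 - s) (-1) t := (hasDerivAt_id t).const_sub _
  have e1 := (h.deriv _ hr).comp t hsub
  have e2 := (h.deriv' _ hr).comp t hsub
  have dD := (h.deriv t ht).fun_sub e1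
  have dS := (h.deriv t ht).fun_add e1
  have dD' := (h.deriv' t ht).fun_sub e2
  have dS' := (h.deriv' t ht).fun_add e2
  have dC := ((hasDerivAt_cos t).fun_pow 2).fun_sub ((hasDerivAt_sin t).fun_pow 2)
  have dP := (hasDerivAt_sin t).fun_mul (hasDerivAt_cos t)
  have dG := c.deriv_Sig t ht
  have dG' := c.deriv_Sig' t ht
  have dM := ((dG.const_mul 4).const_sub (2 * c.K)).fun_sub ((c.deriv_J t ht).const_mul 2)
  have dT := ((((dG.fun_mul dD').fun_sub (dG'.fun_mul dS)).fun_neg.div_const 2).fun_add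
    ((((dG.fun_mul dC).fun_mul dS').fun_sub
      (((dG'.fun_mul dC).fun_add (dG.fun_mul (dP.const_mul 4).fun_neg)).fun_mul dD)).div_const 2)).fun_add
    ((dP.fun_mul dM).fun_mul dD)
  refine dT.congr_deriv ?_
  have hid := multiplier_identity (sin t) (cos t) (c.Sig t / (sin t * cos t) ^ 2) (c.Sig' t)
    (c.J t) c.K (modelJacobian l k t) (modelJacobian l k (π / 2 - t)) (y t) (y (π / 2 - t))
    (y' t) (y' (π / 2 - t)) (y'' t) (y'' (π / 2 - t)) ye
    ((cos t ^ 2 * modelJacobian l k t - sin t ^ 2 * modelJacobian l k (π / 2 - t))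
      / (2 * sin t * cos t))
    (sin_sq_add_cos_sq t) (by field_simp)
  have hG : c.Sig t / (sin t * cos t) ^ 2 * (sin t * cos t) ^ 2 = c.Sig t :=
    div_mul_cancel₀ _ (pow_ne_zero _ (mul_ne_zero hs0 hc0))
  rw [hG] at hid
  have hG2 : 2 * c.Sig t / (sin t * cos t) ^ 2 = 2 * (c.Sig t / (sin t * cos t) ^ 2) := by ring
  simp only [Function.comp_apply, hG2]
  push_cast
  linear_combination -hid

/-- **Multiplier argument.** The target integral is nonnegative. -/
theorem ScalarData.integral_nonneg (h : ScalarData y y' y'' eta ye) (c : Cert l k) (hl : 1 ≤ l) :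
    IntervalIntegrable (fun t => modelJacobian l k t * y t) volume 0 (π / 2) ∧
      0 ≤ ∫ t in (0 : ℝ)..(π / 2), modelJacobian l k t * y t := by
  have hpi := pi_pos
  have hye := h.ye_nonneg
  obtain ⟨C, hC⟩ := h.growth
  obtain ⟨Cs, hCs⟩ := c.small
  have hq : (0 : ℝ) < π / 4 := by positivity
  have hinI : ∀ t ∈ Ioc (0 : ℝ) (π / 4), t ∈ Ioo (0 : ℝ) (π / 2) := fun t ht =>
    ⟨ht.1, by linarith [ht.2]⟩
  have hrI : ∀ t ∈ Ioo (0 : ℝ) (π / 2), π / 2 - t ∈ Ioo (0 : ℝ) (π / 2) := fun t ht =>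
    ⟨by linarith [ht.2], by linarith [ht.1]⟩
  -- the target on the half interval
  let W : ℝ → ℝ := fun t =>
    modelJacobian l k t * y t + modelJacobian l k (π / 2 - t) * y (π / 2 - t)
  have hWb : ∀ t ∈ Ioc (0 : ℝ) (π / 4),
      |modelJacobian l k t * y t| ≤ C * (t * (1 + |log t|)) ∧
      |modelJacobian l k (π / 2 - t) * y (π / 2 - t)| ≤ C * (t * (1 + |log t|)) := by
    intro t ht
    obtain ⟨h1, h2, -, -⟩ := hC t ht
    have e1 := abs_modelJacobian_le (k := k) hl (abs_sin_mul_cos_le ht.1.le)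
    have e2 : |modelJacobian l k (π / 2 - t)| ≤ t := by
      apply abs_modelJacobian_le hl
      rw [sin_pi_div_two_sub, cos_pi_div_two_sub, mul_comm]
      exact abs_sin_mul_cos_le ht.1.le
    constructor <;> rw [abs_mul]
    · exact (mul_le_mul e1 h1 (abs_nonneg _) ht.1.le).trans_eq (by ring)
    · exact (mul_le_mul e2 h2 (abs_nonneg _) ht.1.le).trans_eq (by ring)
  have hy_cont : ContinuousOn y (Ioo 0 (π / 2)) := fun t ht =>
    (h.deriv t ht).continuousAt.continuousWithinAt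
  have hy_cont' : ContinuousOn (fun t => y (π / 2 - t)) (Ioo 0 (π / 2)) :=
    hy_cont.comp (by fun_prop) hrI
  have hw : Continuous (modelJacobian l k) := by unfold modelJacobian; fun_prop
  have hA : IntervalIntegrable (fun t => modelJacobian l k t * y t) volume 0 (π / 4) := by
    apply (intervalIntegrable_iff_integrableOn_Icc_of_le hq.le).2
    have := continuousOn_extend_zero (f := fun t => modelJacobian l k t * y t) hq
      ((hw.continuousOn.mul hy_cont).mono hinI) (fun t ht => (hWb t ht).1)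
    refine (integrableOn_Icc_iff_integrableOn_Ioc (μ := volume)).2 ?_
    refine (this.integrableOn_Icc.mono_set Ioc_subset_Icc_self).congr_fun ?_ measurableSet_Ioc
    intro t ht; simp [ne_of_gt ht.1]
  have hB : IntervalIntegrable (fun t => modelJacobian l k (π / 2 - t) * y (π / 2 - t)) volume 0
      (π / 4) := by
    apply (intervalIntegrable_iff_integrableOn_Icc_of_le hq.le).2
    have := continuousOn_extend_zero
      (f := fun t => modelJacobian l k (π / 2 - t) * y (π / 2 - t)) hq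
      (((hw.comp (by fun_prop)).continuousOn.mul hy_cont').mono hinI) (fun t ht => (hWb t ht).2)
    refine (integrableOn_Icc_iff_integrableOn_Ioc (μ := volume)).2 ?_
    refine (this.integrableOn_Icc.mono_set Ioc_subset_Icc_self).congr_fun ?_ measurableSet_Ioc
    intro t ht; simp [ne_of_gt ht.1]
  -- the coefficient of the endpoint value
  let M : ℝ → ℝ := fun t => c.Sig t / (sin t * cos t) ^ 2 + c.J t
  have hMi : IntervalIntegrable M volume 0 (π / 4) := by
    apply IntervalIntegrable.add _ (c.cont_J.intervalIntegrable _ _)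
    rw [intervalIntegrable_iff_integrableOn_Ioc_of_le hq.le]
    refine IntegrableOn.of_bound (C := Cs * π ^ 2) measure_Ioc_lt_top ?_ ?_
    · refine ContinuousOn.aestronglyMeasurable ?_ measurableSet_Ioc
      refine ContinuousOn.div (fun t ht => (c.deriv_Sig t (hinI t ht)).continuousAt.continuousWithinAt)
        (by fun_prop) fun t ht => ?_
      have := sin_mul_cos_lower ht
      exact pow_ne_zero _ (ne_of_gt (lt_of_lt_of_le (div_pos ht.1 hpi) this))
    · refine (ae_restrict_iff' measurableSet_Ioc).2 (Eventually.of_forall fun t ht => ?_)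
      have h1 := (hCs t ht).1
      have h2 := sin_mul_cos_lower ht
      have h3 : 0 < t / π := div_pos ht.1 hpi
      have h4 : (t / π) ^ 2 ≤ (sin t * cos t) ^ 2 := pow_le_pow_left₀ h3.le h2 2
      have h5 : 0 ≤ Cs * t ^ 2 := (abs_nonneg _).trans h1
      rw [norm_eq_abs, abs_div, abs_of_nonneg (sq_nonneg (sin t * cos t))]
      calc |c.Sig t| / (sin t * cos t) ^ 2 ≤ Cs * t ^ 2 / (t / π) ^ 2 :=
            div_le_div₀ h5 h1 (by positivity) h4
        _ = Cs * π ^ 2 := by
            have := ne_of_gt ht.1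
            field_simp
  let φ : ℝ → ℝ := fun t => 2 * (M t - c.K) * ye - W t
  have hφi : IntervalIntegrable φ volume 0 (π / 4) :=
    (((hMi.sub intervalIntegrable_const).const_mul 2).mul_const ye).sub (hA.add hB)
  -- the boundary form
  obtain ⟨Cj, hCj⟩ := isCompact_Icc.exists_bound_of_continuousOn
    (c.cont_J.continuousOn (s := Icc 0 (π / 4)))
  have hbf := abs_boundaryForm_le c hC hCs hCj
  let Φd : ℝ → ℝ := fun t => φ t
    + (c.Sig t / (sin t * cos t) ^ 2 * (2 * sin t ^ 2 * cos t ^ 2 * (y t + y (π / 2 - t))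
        - sin t ^ 2 * cos t ^ 2 * (sin t ^ 2 * y'' t + cos t ^ 2 * y'' (π / 2 - t))
        + (sin t ^ 4 + cos t ^ 4)
          * (y t + y (π / 2 - t) + sin t * cos t * (y' t + y' (π / 2 - t)) - ye))
      + 2 * (c.K - c.Sig t / (sin t * cos t) ^ 2 / 2 - c.Sig t - c.J t)
        * (sin t * cos t * (y' t + y' (π / 2 - t))
          + (cos t ^ 2 - sin t ^ 2) * (y t - y (π / 2 - t)) + ye))
  have hder : ∀ t ∈ Ioo (0 : ℝ) (π / 2), HasDerivAt (boundaryForm c y y') (Φd t) t :=
    fun t ht => hasDerivAt_boundaryForm h c ht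
  have hcont : ContinuousOn (fun t => if t = 0 then 0 else boundaryForm c y y' t)
      (Icc 0 (π / 4)) :=
    continuousOn_extend_zero hq
      (fun t ht => (hder t (hinI t ht)).continuousAt.continuousWithinAt) hbf
  have key := intervalIntegral.integral_le_sub_of_hasDeriv_right_of_le (g' := Φd) (φ := φ) hq.le
    hcont (by
      intro t ht
      refine HasDerivAt.hasDerivWithinAt ?_
      apply (hder t ⟨ht.1, by linarith [ht.2]⟩).congr_of_eventuallyEq
      filter_upwards [Ioi_mem_nhds ht.1] with s hs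
      rw [if_neg (ne_of_gt hs)])
    ((intervalIntegrable_iff_integrableOn_Icc_of_le hq.le).1 hφi)
    (fun t ht => le_add_of_nonneg_right (h.combination_nonneg c ⟨ht.1, ht.2.le⟩))
  rw [if_pos rfl, if_neg hq.ne', boundaryForm_quarter, sub_zero] at key
  have hsum : (∫ t in (0 : ℝ)..(π / 4), φ t) =
      2 * ((∫ t in (0 : ℝ)..(π / 4), M t) - c.K * (π / 4)) * ye
        - ∫ t in (0 : ℝ)..(π / 4), W t := by
    simp only [φ]
    rw [intervalIntegral.integral_sub (((hMi.sub intervalIntegrable_const).const_mul 2).mul_const ye)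
      (hA.add hB), intervalIntegral.integral_mul_const, intervalIntegral.integral_const_mul,
      intervalIntegral.integral_sub hMi intervalIntegrable_const, intervalIntegral.integral_const]
    simp [W, mul_comm]
  rw [hsum] at key
  have hm : 0 ≤ 2 * ((∫ t in (0 : ℝ)..(π / 4), M t) - c.K * (π / 4)) * ye :=
    mul_nonneg (mul_nonneg two_pos.le (sub_nonneg.2 c.margin)) hye
  have hB' : IntervalIntegrable (fun t => modelJacobian l k t * y t) volume (π / 4) (π / 2) := by
    have := hB.comp_sub_left (π / 2)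
    simp only [sub_sub_cancel, sub_zero] at this
    rw [show π / 2 - π / 4 = π / 4 by ring] at this
    exact this.symm
  refine ⟨hA.trans hB', ?_⟩
  rw [← intervalIntegral.integral_add_adjacent_intervals hA hB']
  have hflip : (∫ t in (π / 4)..(π / 2), modelJacobian l k t * y t) =
      ∫ t in (0 : ℝ)..(π / 4), modelJacobian l k (π / 2 - t) * y (π / 2 - t) := by
    rw [intervalIntegral.integral_comp_sub_left (fun t => modelJacobian l k t * y t), sub_zero,
      show π / 2 - π / 4 = π / 4 by ring]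
  rw [hflip, ← intervalIntegral.integral_add hA hB]
  change 0 ≤ ∫ t in (0 : ℝ)..(π / 4), W t
  linarith

/-- Equality case: if `y` vanishes, so do `eta` and the endpoint value. -/
theorem ScalarData.eq_zero (h : ScalarData y y' y'' eta ye)
    (hy : ∀ t ∈ Ioo (0 : ℝ) (π / 2), y t = 0) :
    ye = 0 ∧ ∀ t ∈ Ioo (0 : ℝ) (π / 2), eta t = 0 := by
  have h1 : ∀ t ∈ Ioo (0 : ℝ) (π / 2), y' t = 0 := by
    intro t ht
    have : y =ᶠ[𝓝 t] fun _ => 0 := by
      filter_upwards [Ioo_mem_nhds ht.1 ht.2] with s hs using hy s hs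
    exact ((h.deriv t ht).congr_of_eventuallyEq this.symm).unique (hasDerivAt_const t 0)
  have h2 : ∀ t ∈ Ioo (0 : ℝ) (π / 2), y'' t = 0 := by
    intro t ht
    have : y' =ᶠ[𝓝 t] fun _ => 0 := by
      filter_upwards [Ioo_mem_nhds ht.1 ht.2] with s hs using h1 s hs
    exact ((h.deriv' t ht).congr_of_eventuallyEq this.symm).unique (hasDerivAt_const t 0)
  have hr : ∀ t ∈ Ioo (0 : ℝ) (π / 2), π / 2 - t ∈ Ioo (0 : ℝ) (π / 2) := fun t ht =>
    ⟨by linarith [ht.2], by linarith [ht.1]⟩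
  have hs : ∀ t ∈ Ioo (0 : ℝ) (π / 2), 0 ≤ eta t ∧ ye + 2 * eta t ≤ 0 := by
    intro t ht
    have f := h.fwd t ht
    have s := h.straddle t ht
    rw [hy t ht, h2 t ht] at f
    rw [hy t ht, hy _ (hr t ht), h1 t ht, h1 _ (hr t ht)] at s
    have hsin : 0 < sin t ^ 2 := pow_pos (sin_pos_of_pos_of_lt_pi ht.1 (by linarith [ht.2, pi_pos])) 2
    exact ⟨by nlinarith, by linarith⟩
  have hye := h.ye_nonneg
  have hq : π / 4 ∈ Ioo (0 : ℝ) (π / 2) := ⟨by positivity, by linarith [pi_pos]⟩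
  obtain ⟨a, b⟩ := hs _ hq
  refine ⟨by linarith, fun t ht => ?_⟩
  obtain ⟨a, b⟩ := hs t ht
  linarith

end Vale.Agent.P231
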