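import Vale.Agent.P231.Analysis.Identity

/-!
The multiplier argument: four differential inequalities and a certificate give the integral
inequality.
-/

namespace Vale.Agent.P231

open Real Set MeasureTheory Filter Topology

/-- The hypotheses on the normalised mean log-density `y`. -/
structure ScalarData (y y' y'' eta : ℝ → ℝ) (ye : ℝ) : Prop where
  deriv : ∀ t ∈ Ioo (0 : ℝ) (π / 2), HasDerivAt y (y' t) t
  deriv' : ∀ t ∈ Ioo (0 : ℝ) (π / 2), HasDerivAt y' (y'' t) t
  fwd : ∀ t ∈ Ioo (0 : ℝ) (π / 2),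
    0 ≤ cos t ^ 2 * (2 * y t - sin t ^ 2 * y'' t) + 2 * eta t * sin t ^ 2
  bwd : ∀ t ∈ Ioo (0 : ℝ) (π / 2),
    0 ≤ sin t ^ 2 * (2 * y (π / 2 - t) - cos t ^ 2 * y'' (π / 2 - t)) + 2 * eta t * cos t ^ 2
  straddle : ∀ t ∈ Ioo (0 : ℝ) (π / 2),
    ye + 2 * eta t ≤ y t + y (π / 2 - t) + sin t * cos t * (y' t + y' (π / 2 - t))
  side : ∀ t ∈ Ioo (0 : ℝ) (π / 2),
    0 ≤ sin t * cos t * (y' t + y' (π / 2 - t))
      + (cos t ^ 2 - sin t ^ 2) * (y t - y (π / 2 - t)) + ye
  growth : ∃ C, ∀ t ∈ Ioc (0 : ℝ) (π / 4),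
    |y t| ≤ C * (1 + |log t|) ∧ |y (π / 2 - t)| ≤ C * (1 + |log t|) ∧
    t * |y' t| ≤ C * (1 + |log t|) ∧ t * |y' (π / 2 - t)| ≤ C * (1 + |log t|)

variable {y y' y'' eta : ℝ → ℝ} {ye : ℝ}

theorem tendsto_mul_log_weight :
    Tendsto (fun t : ℝ => t * (1 + |log t|)) (𝓝[>] 0) (𝓝 0) := by
  have h1 : Tendsto (fun t : ℝ => t) (𝓝[>] 0) (𝓝 0) :=
    tendsto_nhdsWithin_of_tendsto_nhds tendsto_id
  have h2 : Tendsto (fun t : ℝ => |t * log t|) (𝓝[>] 0) (𝓝 0) := by
    have := (continuous_mul_log.abs.tendsto (0 : ℝ))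
    simp only [zero_mul, abs_zero] at this
    exact tendsto_nhdsWithin_of_tendsto_nhds this
  have h3 := h1.add h2
  rw [add_zero] at h3
  apply h3.congr'
  filter_upwards [self_mem_nhdsWithin] with t ht
  rw [abs_mul, abs_of_pos (ht : (0 : ℝ) < t)]
  ring

/-- A function on `(0, b]` dominated by `C t (1 + |log t|)` extends continuously by zero. -/
theorem continuousOn_extend_zero {f : ℝ → ℝ} {C b : ℝ} (hb : 0 < b)
    (hf : ContinuousOn f (Ioc 0 b))
    (hbd : ∀ t ∈ Ioc 0 b, |f t| ≤ C * (t * (1 + |log t|))) :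
    ContinuousOn (fun t => if t = 0 then 0 else f t) (Icc 0 b) := by
  intro t ht
  rcases eq_or_lt_of_le ht.1 with h0 | h0
  · subst h0
    have hle : 𝓝[Ioc (0 : ℝ) b] 0 ≤ 𝓝[>] 0 := nhdsWithin_mono _ Ioc_subset_Ioi_self
    have hlim : Tendsto f (𝓝[Ioc (0 : ℝ) b] 0) (𝓝 0) := by
      apply squeeze_zero_norm' (a := fun t => C * (t * (1 + |log t|)))
      · filter_upwards [self_mem_nhdsWithin] with s hs using hbd s hs
      · simpa using (tendsto_mul_log_weight.mono_left hle).const_mul C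
    show ContinuousWithinAt _ _ _
    rw [← Ioc_insert_left hb.le, continuousWithinAt_insert_self, ContinuousWithinAt, if_pos rfl]
    apply hlim.congr'
    filter_upwards [self_mem_nhdsWithin] with s hs
    rw [if_neg (ne_of_gt hs.1)]
  · have h1 : ContinuousWithinAt f (Ioc 0 b) t := hf t ⟨h0, ht.2⟩
    have h2 : ContinuousWithinAt f (Icc 0 b) t := by
      apply h1.mono_of_mem_nhdsWithin
      exact mem_nhdsWithin.2 ⟨Ioi 0, isOpen_Ioi, h0, fun s hs => ⟨hs.1, hs.2.2⟩⟩
    apply h2.congr_of_eventuallyEq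
    · have : Ioi (0 : ℝ) ∈ 𝓝[Icc 0 b] t := mem_nhdsWithin_of_mem_nhds (Ioi_mem_nhds h0)
      filter_upwards [this] with s hs
      rw [if_neg (ne_of_gt hs)]
    · rw [if_neg (ne_of_gt h0)]

theorem ScalarData.ye_nonneg (h : ScalarData y y' y'' eta ye) : 0 ≤ ye := by
  obtain ⟨C, hC⟩ := h.growth
  have hpi := pi_pos
  let q : ℝ → ℝ := fun t => 2 * (sin t * cos t) * (y t - y (π / 2 - t))
  have hq : ∀ t ∈ Ioo (0 : ℝ) (π / 2), HasDerivAt q
      (2 * (sin t * cos t * (y' t + y' (π / 2 - t))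
        + (cos t ^ 2 - sin t ^ 2) * (y t - y (π / 2 - t)))) t := by
    intro t ht
    have hr : π / 2 - t ∈ Ioo (0 : ℝ) (π / 2) := ⟨by linarith [ht.2], by linarith [ht.1]⟩
    have e1 := (h.deriv _ hr).comp t ((hasDerivAt_id t).const_sub (π / 2))
    have := ((((hasDerivAt_sin t).fun_mul (hasDerivAt_cos t)).const_mul 2).fun_mul
      ((h.deriv t ht).fun_sub e1))
    refine this.congr_deriv ?_
    simp only [Function.comp_apply]
    ring
  have hcont : ContinuousOn (fun t => if t = 0 then 0 else q t) (Icc 0 (π / 4)) := by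
    apply continuousOn_extend_zero (C := 4 * C) (by positivity)
    · intro t ht
      exact (hq t ⟨ht.1, by linarith [ht.2]⟩).continuousAt.continuousWithinAt
    · intro t ht
      obtain ⟨h1, h2, -, -⟩ := hC t ht
      have hs : |sin t * cos t| ≤ t := by
        rw [abs_mul]
        calc |sin t| * |cos t| ≤ |t| * 1 :=
              mul_le_mul (abs_sin_le_abs) (abs_cos_le_one t) (abs_nonneg _) (abs_nonneg _)
          _ = t := by rw [mul_one, abs_of_pos ht.1]
      have hd : |y t - y (π / 2 - t)| ≤ 2 * (C * (1 + |log t|)) := (abs_sub _ _).trans (by linarith)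
      calc |q t| = 2 * |sin t * cos t| * |y t - y (π / 2 - t)| := by
            simp only [q, abs_mul, abs_two]
        _ ≤ 2 * t * (2 * (C * (1 + |log t|))) := by
            apply mul_le_mul (by linarith) hd (abs_nonneg _)
            linarith [ht.1]
        _ = 4 * C * (t * (1 + |log t|)) := by ring
  have key := intervalIntegral.integral_le_sub_of_hasDeriv_right_of_le (a := (0 : ℝ)) (b := π / 4)
    (φ := fun _ => -2 * ye) (g' := fun t => 2 * (sin t * cos t * (y' t + y' (π / 2 - t))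
        + (cos t ^ 2 - sin t ^ 2) * (y t - y (π / 2 - t))))
    (by positivity) hcont (by
      intro t ht
      refine HasDerivAt.hasDerivWithinAt ?_
      apply (hq t ⟨ht.1, by linarith [ht.2]⟩).congr_of_eventuallyEq
      filter_upwards [Ioi_mem_nhds ht.1] with s hs
      rw [if_neg (ne_of_gt hs)])
    (integrableOn_const (by simp)) (by
      intro t ht
      have := h.side t ⟨ht.1, by linarith [ht.2]⟩
      linarith)
  rw [intervalIntegral.integral_const, if_pos rfl, if_neg (by positivity)] at key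
  have : q (π / 4) = 0 := by
    simp only [q]; rw [show π / 2 - π / 4 = π / 4 by ring]; ring
  rw [this, smul_eq_mul] at key
  by_contra hc
  nlinarith

/-- The nonnegative combination. -/
theorem ScalarData.combination_nonneg (h : ScalarData y y' y'' eta ye) {l k : ℕ} (c : Cert l k)
    {t : ℝ} (ht : t ∈ Ioc (0 : ℝ) (π / 4)) :
    0 ≤ c.Sig t / (sin t * cos t) ^ 2 * (2 * sin t ^ 2 * cos t ^ 2 * (y t + y (π / 2 - t))
        - sin t ^ 2 * cos t ^ 2 * (sin t ^ 2 * y'' t + cos t ^ 2 * y'' (π / 2 - t))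
        + (sin t ^ 4 + cos t ^ 4)
          * (y t + y (π / 2 - t) + sin t * cos t * (y' t + y' (π / 2 - t)) - ye))
      + 2 * (c.K - c.Sig t / (sin t * cos t) ^ 2 / 2 - c.Sig t - c.J t)
        * (sin t * cos t * (y' t + y' (π / 2 - t))
          + (cos t ^ 2 - sin t ^ 2) * (y t - y (π / 2 - t)) + ye) := by
  have ht' : t ∈ Ioo (0 : ℝ) (π / 2) := ⟨ht.1, by linarith [ht.2, pi_pos]⟩
  apply add_nonneg
  · apply mul_nonneg (div_nonneg (c.nonneg t ht) (sq_nonneg _))
    nlinarith [h.straddle t ht', mul_nonneg (sq_nonneg (sin t)) (h.fwd t ht'),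
      mul_nonneg (sq_nonneg (cos t)) (h.bwd t ht'), sq_nonneg (sin t ^ 2), sq_nonneg (cos t ^ 2),
      mul_nonneg (add_nonneg (sq_nonneg (sin t ^ 2)) (sq_nonneg (cos t ^ 2)))
        (sub_nonneg.2 (h.straddle t ht'))]
  · apply mul_nonneg _ (h.side t ht')
    have hu := c.upper t ht
    have hd : c.Sig t / (2 * (sin t * cos t) ^ 2) = c.Sig t / (sin t * cos t) ^ 2 / 2 := by
      rw [div_div, mul_comm]
    linarith

end Vale.Agent.P231
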